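import Vale.Agent.P218CO.Sys
import Vale.Agent.P218CO.Cpt
import Vale.Agent.P272.K.LIN.LTFinal
import Vale.Agent.P223.H850.LinA

/-! # Elliptic operators given by Hölder families of functionals on jets are Fredholm -/

open Set Filter Metric Topology
open scoped NNReal ContDiff

noncomputable section

set_option linter.unusedSectionVars false
set_option linter.unusedVariables false
set_option maxSynthPendingDepth 3

namespace Vale.Agent.P218CE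

open Vale.Agent.P218VA Vale.Agent.P218CO Vale.Agent.P272.K.LIN

section holb
variable {E : Type*} [NormedAddCommGroup E] [NormedSpace ℝ E]
  {U V W : Type*} [NormedAddCommGroup U] [NormedSpace ℝ U] [NormedAddCommGroup V]
  [NormedSpace ℝ V] [NormedAddCommGroup W] [NormedSpace ℝ W]

/-- Hölder continuity on a ball. -/
def HolB (c : E) (r α : ℝ) (f : E → V) : Prop :=
  ∃ K, ∀ y ∈ ball c r, ∀ y' ∈ ball c r, ‖f y - f y'‖ ≤ K * ‖y - y'‖ ^ α

lemma HolB.pos {c : E} {r α : ℝ} {f : E → V} (h : HolB c r α f) :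
    ∃ K, 0 ≤ K ∧ ∀ y ∈ ball c r, ∀ y' ∈ ball c r, ‖f y - f y'‖ ≤ K * ‖y - y'‖ ^ α := by
  obtain ⟨K, hK⟩ := h
  exact ⟨|K|, abs_nonneg _, fun y hy y' hy' => (hK y hy y' hy').trans
    (mul_le_mul_of_nonneg_right (le_abs_self _) (Real.rpow_nonneg (norm_nonneg _) _))⟩

lemma HolB.bdd {c : E} {r α : ℝ} (hr : 0 < r) (h0 : 0 < α) {f : E → V} (h : HolB c r α f) :
    ∃ A, 0 ≤ A ∧ ∀ y ∈ ball c r, ‖f y‖ ≤ A := by
  obtain ⟨K, hK0, hK⟩ := h.pos
  refine ⟨‖f c‖ + K * r ^ α, by positivity, fun y hy => ?_⟩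
  have h1 := hK y hy c (mem_ball_self hr)
  have h2 : ‖y - c‖ ^ α ≤ r ^ α :=
    Real.rpow_le_rpow (norm_nonneg _) (mem_ball_iff_norm.1 hy).le h0.le
  have h3 : ‖f y‖ ≤ ‖f c‖ + ‖f y - f c‖ := norm_le_norm_add_norm_sub' _ _
  have h4 : K * ‖y - c‖ ^ α ≤ K * r ^ α := mul_le_mul_of_nonneg_left h2 hK0
  linarith

lemma holB_const (c : E) (r α : ℝ) (v : V) : HolB c r α fun _ => v :=
  ⟨0, fun y _ y' _ => by simp⟩

lemma HolB.comp {c : E} {r α : ℝ} (hr : 0 < r) (h0 : 0 < α) {f : E → V →L[ℝ] W}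
    {g : E → U →L[ℝ] V} (hf : HolB c r α f) (hg : HolB c r α g) :
    HolB c r α fun y => (f y).comp (g y) := by
  obtain ⟨A, hA0, hA⟩ := hf.bdd hr h0
  obtain ⟨B, hB0, hB⟩ := hg.bdd hr h0
  obtain ⟨K, hK0, hK⟩ := hf.pos
  obtain ⟨L, hL0, hL⟩ := hg.pos
  refine ⟨A * L + K * B, fun y hy y' hy' => ?_⟩
  have h1 : (f y).comp (g y) - (f y').comp (g y') =
      (f y).comp (g y - g y') + (f y - f y').comp (g y') := by
    ext u
    simp
  have h2 : 0 ≤ ‖y - y'‖ ^ α := Real.rpow_nonneg (norm_nonneg _) _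
  rw [h1]
  refine (norm_add_le _ _).trans ?_
  have h3 : ‖(f y).comp (g y - g y')‖ ≤ A * (L * ‖y - y'‖ ^ α) :=
    (ContinuousLinearMap.opNorm_comp_le _ _).trans
      (mul_le_mul (hA y hy) (hL y hy y' hy') (norm_nonneg _) hA0)
  have h4 : ‖(f y - f y').comp (g y')‖ ≤ K * ‖y - y'‖ ^ α * B :=
    (ContinuousLinearMap.opNorm_comp_le _ _).trans
      (mul_le_mul (hK y hy y' hy') (hB y' hy') (norm_nonneg _) (by positivity))
  nlinarith

/-- the jet of the square of an affine function -/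
lemma jet_sq (ξ : E →L[ℝ] ℝ) (y : E) :
    jet (fun z => 1 / 2 * (ξ (z - y)) ^ 2) y = (0, 0, ξ.smulRight ξ) := by
  have h1 : ∀ z, HasFDerivAt (fun z => ξ (z - y)) ξ z := fun z => by
    have := ξ.hasFDerivAt.comp z ((hasFDerivAt_id z).sub_const y)
    rw [ContinuousLinearMap.comp_id] at this
    exact this
  have h2 : fderiv ℝ (fun z => 1 / 2 * (ξ (z - y)) ^ 2) = fun z => ξ (z - y) • ξ := by
    funext z
    have h3 := (((h1 z).pow 2).const_mul (1 / 2 : ℝ)).fderiv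
    rw [h3]
    ext u
    simp
    ring
  unfold jet
  rw [h2, ((h1 y).smul_const ξ).fderiv]
  simp

lemma jet_one (y : E) : jet (fun _ : E => (1 : ℝ)) y = (1, 0, 0) := by
  unfold jet
  simp

end holb

section fred
variable {V V' W : Type*} [NormedAddCommGroup V] [NormedSpace ℝ V] [CompleteSpace V]
  [NormedAddCommGroup V'] [NormedSpace ℝ V'] [NormedAddCommGroup W] [NormedSpace ℂ W]
  [CompleteSpace W]

lemma fred_lift (j : V' →L[ℝ] W) (hj : ∀ a b, j a + Complex.I • j b = 0 → a = 0 ∧ b = 0)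
    (hs : ∀ y, ∃ a b, j a + Complex.I • j b = y) {T K : V →L[ℝ] V'} (hT : Function.Bijective T)
    (hK : IsCompactOperator K) (L : Cx V →L[ℂ] W) (hL : ∀ v, L (Cx.ofR v) = j (T v + K v)) :
    Fred L := by
  refine (fred_of_bijective (Cx.bijective_lift hj hs hT)).of_sub ?_
  have h1 : L - Cx.lift (j.comp T) = Cx.lift (j.comp K) := by
    refine Cx.clm_ext fun u => ?_
    rw [_root_.sub_apply, hL, Cx.lift_ofR, Cx.lift_ofR, map_add]
    simp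
  rw [h1]
  exact Cx.isCompactOperator_lift (hK.clm_comp j)

end fred

section man
variable {E : Type*} [NormedAddCommGroup E] [NormedSpace ℝ E] [FiniteDimensional ℝ E]
  {X : Type*} [TopologicalSpace X] [ChartedSpace E X] [T2Space X] [CompactSpace X] [RSm E X]
  (𝒞 : Cov E X) {α : ℝ}

/-- all the cut off jets in terms of the jet in the `i`-th chart -/
def Phi (i : Fin 𝒞.N) (x : X) : Jet E →L[ℝ] (Fin 𝒞.N → Jet E) :=
  ContinuousLinearMap.pi fun k => 𝒞.η k x • TJ (𝒞.e i) (𝒞.e k) (𝒞.e k x)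

lemma Phi_jet {i : Fin 𝒞.N} {x : X} (hx : x ∈ (𝒞.e i).source) {v : X → ℝ} (hv : CkFn E 2 v) :
    Phi 𝒞 i x (jet (fun y => v ((𝒞.e i).symm y)) (𝒞.e i x)) = fun k => 𝒞.Jf k v x := by
  funext k
  show 𝒞.η k x • TJ (𝒞.e i) (𝒞.e k) (𝒞.e k x) _ = _
  unfold Cov.Jf
  by_cases h : 𝒞.η k x = 0
  · rw [h, zero_smul, zero_smul]
  · rw [jet_change hv (𝒞.mem i) (𝒞.mem k) hx (𝒞.η_ne_zero h).1]

lemma Phi_smooth (i : Fin 𝒞.N) {y : E} (hy : y ∈ (𝒞.e i).target) :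
    ContDiffAt ℝ ∞ (fun z => Phi 𝒞 i ((𝒞.e i).symm z)) y := by
  have h1 : ∀ k, ContDiffAt ℝ ∞ (fun z => 𝒞.η k ((𝒞.e i).symm z) •
      TJ (𝒞.e i) (𝒞.e k) (𝒞.e k ((𝒞.e i).symm z))) y := by
    intro k
    have hx := (𝒞.e i).map_target hy
    by_cases hk : (𝒞.e i).symm y ∈ (𝒞.e k).source
    · refine ((𝒞.η_ck k).at_target (𝒞.mem i) hy).smul ?_
      have h2 := RSm.trans (𝒞.e i) (𝒞.mem i) (𝒞.e k) (𝒞.mem k) _ hx hk
      rw [(𝒞.e i).right_inv hy] at h2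
      exact ContDiffAt.comp (g := TJ (𝒞.e i) (𝒞.e k))
        (f := fun z => 𝒞.e k ((𝒞.e i).symm z)) y
        (contDiffAt_TJ (𝒞.mem i) (𝒞.mem k) hx hk) h2
    · have h2 : ∀ᶠ z in 𝓝 ((𝒞.e i).symm y), 𝒞.η k z = 0 :=
        ext0_eventually_zero (isCompact_closedBall (𝒞.c k) (3 * 𝒞.r k)) (𝒞.sub k) (fun z hz => by
          apply (𝒞.bump k).zero_of_le_dist
          simp only [mem_closedBall, not_le] at hz
          exact hz.le) hk
      have h3 := ((𝒞.e i).continuousAt_symm hy).eventually h2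
      refine (contDiffAt_const (c := 0)).congr_of_eventuallyEq ?_
      filter_upwards [h3] with z hz
      rw [hz]
      exact ContinuousLinearMap.ext fun p => zero_smul ℝ _
  have h2 : (fun z => Phi 𝒞 i ((𝒞.e i).symm z)) = fun z => ∑ k,
      (ContinuousLinearMap.single ℝ (fun _ : Fin 𝒞.N => Jet E) k).comp
        (𝒞.η k ((𝒞.e i).symm z) • TJ (𝒞.e i) (𝒞.e k) (𝒞.e k ((𝒞.e i).symm z))) := by
    funext z
    refine ContinuousLinearMap.ext fun p => funext fun k => ?_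
    rw [_root_.sum_apply, Finset.sum_apply, Finset.sum_eq_single k]
    · simp [Phi]
    · intro b _ hb
      simp [hb.symm]
    · simp
  rw [h2]
  exact ContDiffAt.sum fun k _ => contDiffAt_const.clm_comp (h1 k)

lemma holB_symm {V : Type*} [NormedAddCommGroup V] (h0 : 0 < α) (f : Hol (𝒞.w α) V)
    (i : Fin 𝒞.N) : HolB (𝒞.c i) (2 * 𝒞.r i) α fun y => f ((𝒞.e i).symm y) := by
  have hr := 𝒞.r_pos i
  obtain ⟨D, hD0, hD⟩ := 𝒞.symm_lip (𝒞.mem i) (isCompact_closedBall (𝒞.c i) (3 * 𝒞.r i))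
    (𝒞.sub i)
  have hs : ball (𝒞.c i) (2 * 𝒞.r i) ⊆ closedBall (𝒞.c i) (3 * 𝒞.r i) :=
    ball_subset_closedBall.trans (closedBall_subset_closedBall (by linarith))
  refine ⟨‖f‖ * D ^ α, fun y hy y' hy' => (f.norm_sub_le' _ _).trans ?_⟩
  rw [mul_assoc, 𝒞.coe_w, ← Real.mul_rpow hD0 (norm_nonneg _)]
  exact mul_le_mul_of_nonneg_left
    (Real.rpow_le_rpow (𝒞.d_nonneg _ _) (hD y (hs hy) y' (hs hy')) h0.le) (norm_nonneg _)

/-- test functions -/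
lemma exists_test (h0 : 0 < α) (h1 : α ≤ 1) {i : Fin 𝒞.N} {y : E}
    (hy : y ∈ ball (𝒞.c i) (2 * 𝒞.r i)) (ξ : E →L[ℝ] ℝ) :
    ∃ v : 𝒞.C2 α, jet (fun z => 𝒞.fn v ((𝒞.e i).symm z)) y = (0, 0, ξ.smulRight ξ) := by
  have h2 : ContDiff ℝ 3 fun z : E => 1 / 2 * (ξ (z - y)) ^ 2 :=
    contDiff_const.mul ((ξ.contDiff.comp (contDiff_id.sub contDiff_const)).pow 2)
  refine ⟨𝒞.ofSmooth h0 h1 _ (𝒞.η_smul_ck i (k := 3) (WithTop.coe_le_coe.2 le_top)
    fun z _ => h2.contDiffAt), ?_⟩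
  rw [← jet_sq ξ y]
  refine jet_congr ?_
  filter_upwards [isOpen_ball.mem_nhds hy] with z hz
  obtain ⟨-, h4, h5⟩ := 𝒞.η_symm hz
  rw [Cov.fn_ofSmooth, h4, h5, one_smul]

/-- The real operator is a compact perturbation of an isomorphism. -/
theorem exists_split (h0 : 0 < α) (h1 : α < 1) (L : 𝒞.C2 α →L[ℝ] Hol (𝒞.w α) ℝ)
    (l : Hol (𝒞.w α) ((Fin 𝒞.N → Jet E) →L[ℝ] ℝ))
    (hL : ∀ v x, L v x = l x fun i => 𝒞.Jf i (𝒞.fn v) x)
    (hpos : ∀ i x, x ∈ (𝒞.e i).source → 𝒞.e i x ∈ ball (𝒞.c i) (2 * 𝒞.r i) →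
      ∀ (v : 𝒞.C2 α) (ξ : E →L[ℝ] ℝ), ξ ≠ 0 →
      jet (fun y => 𝒞.fn v ((𝒞.e i).symm y)) (𝒞.e i x) = (0, 0, ξ.smulRight ξ) → 0 < L v x) :
    ∃ T K : 𝒞.C2 α →L[ℝ] Hol (𝒞.w α) ℝ, Function.Bijective T ∧ IsCompactOperator K ∧
      ∀ v, L v = T v + K v := by
  let li : Fin 𝒞.N → E → Jet E →L[ℝ] ℝ := fun i y =>
    (l ((𝒞.e i).symm y)).comp (Phi 𝒞 i ((𝒞.e i).symm y))
  have hli : ∀ i, HolB (𝒞.c i) (2 * 𝒞.r i) α (li i) := fun i => by
    have hr := 𝒞.r_pos i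
    refine (holB_symm 𝒞 h0 l i).comp (by positivity) h0 ?_
    exact P223.H850.LinA.holder_ball (𝒞.e i).open_target (fun y hy => Phi_smooth 𝒞 i hy)
      (by positivity) ((closedBall_subset_closedBall (by linarith)).trans (𝒞.sub i)) h0 h1.le
  have hLi : ∀ v i x, x ∈ (𝒞.e i).source →
      L v x = li i (𝒞.e i x) (jet (fun y => 𝒞.fn v ((𝒞.e i).symm y)) (𝒞.e i x)) := by
    intro v i x hx
    show _ = l ((𝒞.e i).symm (𝒞.e i x)) (Phi 𝒞 i ((𝒞.e i).symm (𝒞.e i x)) _)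
    rw [(𝒞.e i).left_inv hx, Phi_jet 𝒞 hx (𝒞.fn_ck v), hL]
  let one : 𝒞.C2 α := 𝒞.ofSmooth h0 h1.le (fun _ => 1) (ckFn_const 1)
  let mc : Hol (𝒞.w α) ℝ →L[ℝ] Hol (𝒞.w α) ℝ := Hol.bilL (ContinuousLinearMap.mul ℝ ℝ) (L one)
  let L0 : 𝒞.C2 α →L[ℝ] Hol (𝒞.w α) ℝ := L - mc.comp (𝒞.incl α)
  let a : Fin 𝒞.N → E → (E →L[ℝ] E →L[ℝ] ℝ) →L[ℝ] ℝ := fun i y => (li i y).comp
    ((ContinuousLinearMap.inr ℝ ℝ _).comp (ContinuousLinearMap.inr ℝ (E →L[ℝ] ℝ) _))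
  let b : Fin 𝒞.N → E → (E →L[ℝ] ℝ) →L[ℝ] ℝ := fun i y => (li i y).comp
    ((ContinuousLinearMap.inr ℝ ℝ _).comp (ContinuousLinearMap.inl ℝ _ (E →L[ℝ] E →L[ℝ] ℝ)))
  have hEll : Cov.Ell 𝒞 α L0 a b := by
    refine ⟨fun i => ?_, fun i => ?_, fun i y hy ξ hξ => ?_, fun v i x hx hxb => ?_⟩
    · exact (hli i).comp (by have := 𝒞.r_pos i; positivity) h0 (holB_const _ _ _ _)
    · exact (hli i).comp (by have := 𝒞.r_pos i; positivity) h0 (holB_const _ _ _ _)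
    · obtain ⟨v, hv⟩ := exists_test 𝒞 h0 h1.le hy ξ
      obtain ⟨h2, h3, -⟩ := 𝒞.η_symm hy
      have h4 := hpos i _ h2 (by rw [h3]; exact hy) v ξ hξ (by rw [h3]; exact hv)
      rw [hLi v i _ h2, h3, hv] at h4
      exact h4
    · have h2 : L one x = li i (𝒞.e i x) (1, 0, 0) := by
        rw [hLi one i x hx, ← jet_one (𝒞.e i x)]
        rfl
      show L v x - L one x * 𝒞.fn v x = li i (𝒞.e i x) (0, 0, _) + li i (𝒞.e i x) (0, _, 0)
      rw [hLi v i x hx, h2, mul_comm, ← smul_eq_mul, ← map_smul, ← map_sub, ← map_add]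
      congr 1
      unfold jet
      simp [(𝒞.e i).left_inv hx]
  have hT := linear_bijective h0 h1 hEll 1 one_pos
  obtain ⟨C, hC0, hC⟩ := 𝒞.exists_lip_C2 (α := α)
  have hK : IsCompactOperator (𝒞.incl α) := isCompactOperator_of_lip 𝒞 h0 h1 _ hC0 hC
  refine ⟨L0 - 𝒞.incl α, (ContinuousLinearMap.id ℝ _ + mc).comp (𝒞.incl α), ?_,
    hK.clm_comp (ContinuousLinearMap.id ℝ _ + mc), fun v => ?_⟩
  · have h2 : ((L0 - 𝒞.incl α : 𝒞.C2 α →L[ℝ] Hol (𝒞.w α) ℝ) : 𝒞.C2 α → Hol (𝒞.w α) ℝ) =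
        Neg.neg ∘ fun v => (1 : ℝ) • 𝒞.incl α v - L0 v := by
      funext v
      simp
    rw [h2]
    exact neg_involutive.bijective.comp hT
  · simp [L0]
    abel

end man

variable {M : Type} [TopologicalSpace M] [ChartedSpace E2 M] [T2Space M] [CompactSpace M]
  [RSm E2 M]

/-- **Elliptic operators with Hölder coefficients are Fredholm of index zero.** -/
theorem fred_of_local (C : Cov E2 M) (L : VC C →L[ℂ] Hol (C.w (1 / 2)) ℂ)
    (l : Hol (C.w (1 / 2)) ((Fin C.N → Jet E2) →L[ℝ] ℝ))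
    (hL : ∀ (v : VR C) x, L (Cx.ofR v) x = ((l x (fun i => C.Jf i (fnR v) x) : ℝ) : ℂ))
    (hpos : ∀ i x, x ∈ (C.e i).source → C.e i x ∈ ball (C.c i) (2 * C.r i) →
      ∀ (v : VR C) (ξ : E2 →L[ℝ] ℝ), ξ ≠ 0 →
      jet (fun y => fnR v ((C.e i).symm y)) (C.e i x) = (0, 0, ξ.smulRight ξ) →
      0 < (L (Cx.ofR v) x).re) : Fred L := by
  have hn : ∀ p : VR C, ‖L (Cx.ofR p)‖ ≤ ‖L‖ * ‖p‖ := fun p => by
    rw [← Cx.norm_ofR p]
    exact L.le_opNorm _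
  let Lr : VR C →L[ℝ] Hol (C.w (1 / 2)) ℝ := mkL (C.w (1 / 2))
    (fun x => Complex.reCLM.comp ((((evalK ℂ x).comp L).restrictScalars ℝ).comp Cx.ofR))
    ‖L‖ ‖L‖ (norm_nonneg _) (norm_nonneg _)
    (fun p x => (Complex.abs_re_le_norm _).trans (((L (Cx.ofR p)).norm_apply_le x).trans (hn p)))
    (fun p x y => by
      show |(L (Cx.ofR p) x).re - (L (Cx.ofR p) y).re| ≤ _
      rw [← Complex.sub_re]
      exact (Complex.abs_re_le_norm _).trans (((L (Cx.ofR p)).norm_sub_le' x y).trans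
        (mul_le_mul_of_nonneg_right (hn p) (NNReal.coe_nonneg _))))
  have hLr : ∀ (v : VR C) x, Lr v x = (L (Cx.ofR v) x).re := fun v x => rfl
  have hl : ∀ (v : VR C) x, Lr v x = l x fun i => C.Jf i (fnR v) x := fun v x => by
    rw [hLr, hL, Complex.ofReal_re]
  have key : ∃ T K : VR C →L[ℝ] Hol (C.w (1 / 2)) ℝ, Function.Bijective T ∧ IsCompactOperator K ∧
      ∀ v, Lr v = T v + K v := exists_split C (by norm_num) (by norm_num) Lr l hl hpos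
  obtain ⟨T, K, hT, hK, hs⟩ := key
  refine fred_lift (V := VR C) (W := Hol (C.w (1 / 2)) ℂ) (Hol.map Complex.ofRealCLM)
    (fun a b h => ?_) (fun y => ?_) hT hK L fun v => ?_
  · have h1 : ∀ x, (a x : ℂ) + Complex.I * b x = 0 := fun x =>
      congrArg (fun g : Hol (C.w (1 / 2)) ℂ => g x) h
    refine ⟨Hol.ext fun x => ?_, Hol.ext fun x => ?_⟩
    · simpa using congrArg Complex.re (h1 x)
    · simpa using congrArg Complex.im (h1 x)
  · refine ⟨Hol.map Complex.reCLM y, Hol.map Complex.imCLM y, Hol.ext fun x => ?_⟩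
    show ((y x).re : ℂ) + Complex.I * (y x).im = y x
    rw [mul_comm, Complex.re_add_im]
  · refine Hol.ext fun x => ?_
    show _ = (((T v + K v) x : ℝ) : ℂ)
    rw [← hs, hl, hL]

end Vale.Agent.P218CE
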